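import Mathlib

/-!
The abstract perturbation lemma for 2-dilations.
-/

namespace Vale.Agent.P123

open scoped InnerProductSpace

variable {H : Type*} [NormedAddCommGroup H] [InnerProductSpace ℂ H]

/-- An almost maximising unit vector for `T`. -/
theorem exists_almost_max (T : H →L[ℂ] H) (hT : 0 < ‖T‖) {ε R : ℝ} (hε : 0 < ε) :
    ∃ x : H, ‖x‖ = 1 ∧ ‖T‖ ^ 2 - ε ≤ ‖T x‖ ^ 2 ∧
      ∀ y : H, ‖y‖ ≤ R → (⟪T x, T y⟫_ℂ).re ≤ ‖T‖ ^ 2 * (⟪x, y⟫_ℂ).re + ε := by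
  set k := ‖T‖ with hk
  -- choose `s` small, then `η` small
  obtain ⟨s, hs0, hs⟩ : ∃ s : ℝ, 0 < s ∧ s * (k ^ 2 * R ^ 2) ≤ ε := by
    refine ⟨ε / (k ^ 2 * R ^ 2 + 1), by positivity, ?_⟩
    rw [div_mul_eq_mul_div, div_le_iff₀ (by positivity)]
    nlinarith [sq_nonneg k, sq_nonneg R, mul_nonneg (sq_nonneg k) (sq_nonneg R)]
  obtain ⟨η, hη0, hη1, hη2⟩ : ∃ η : ℝ, 0 < η ∧ η ≤ ε ∧ η ≤ s * ε :=
    ⟨min ε (s * ε), by positivity, min_le_left _ _, min_le_right _ _⟩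
  obtain ⟨θ, hθ0, hθ1, hθ2⟩ : ∃ θ : ℝ, 0 < θ ∧ θ ≤ k ∧ 2 * k * θ ≤ η := by
    refine ⟨min k (η / (2 * k)), by positivity, min_le_left _ _, ?_⟩
    have : min k (η / (2 * k)) ≤ η / (2 * k) := min_le_right _ _
    rw [le_div_iff₀ (by positivity)] at this
    linarith
  obtain ⟨x0, hx0, hx1⟩ := T.exists_lt_apply_of_lt_opNorm (r := k - θ) (by linarith)
  have hx0ne : x0 ≠ 0 := by
    rintro rfl
    simp at hx1
    linarith
  have hn0 : 0 < ‖x0‖ := norm_pos_iff.mpr hx0ne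
  set x : H := ((‖x0‖⁻¹ : ℝ) : ℂ) • x0 with hx
  have hxn : ‖x‖ = 1 := by
    rw [hx, norm_smul, Complex.norm_real, norm_inv, norm_norm]
    field_simp
  have hTx : k - θ ≤ ‖T x‖ := by
    rw [hx, map_smul, norm_smul, Complex.norm_real, norm_inv, norm_norm]
    have h1 : 1 ≤ ‖x0‖⁻¹ := by
      rw [one_le_inv₀ hn0]; exact hx0.le
    nlinarith [norm_nonneg (T x0)]
  have hTx2 : k ^ 2 - η ≤ ‖T x‖ ^ 2 := by
    have h0 : 0 ≤ k - θ := by linarith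
    have : (k - θ) ^ 2 ≤ ‖T x‖ ^ 2 := by gcongr
    nlinarith [sq_nonneg θ]
  clear_value x
  refine ⟨x, hxn, by linarith, fun y hy => ?_⟩
  have h1 : ‖T (x + (s : ℂ) • y)‖ ≤ k * ‖x + (s : ℂ) • y‖ := T.le_opNorm _
  have h2 : ‖T (x + (s : ℂ) • y)‖ ^ 2 ≤ k ^ 2 * ‖x + (s : ℂ) • y‖ ^ 2 := by
    rw [← mul_pow]; gcongr
  rw [map_add, map_smul, @norm_add_sq ℂ, @norm_add_sq ℂ, inner_smul_right, inner_smul_right,
    norm_smul, norm_smul, hxn, Complex.norm_real, Real.norm_eq_abs, abs_of_pos hs0] at h2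
  simp only [RCLike.re_to_complex, Complex.re_ofReal_mul] at h2
  have h3 : ‖y‖ ^ 2 ≤ R ^ 2 := by gcongr
  have h4 : 2 * s * (⟪T x, T y⟫_ℂ).re ≤ 2 * s * (k ^ 2 * (⟪x, y⟫_ℂ).re + ε) := by
    have h5 : k ^ 2 * (s * ‖y‖) ^ 2 ≤ s * ε := by
      calc k ^ 2 * (s * ‖y‖) ^ 2 = s * (s * (k ^ 2 * ‖y‖ ^ 2)) := by ring
        _ ≤ s * (s * (k ^ 2 * R ^ 2)) := by gcongr
        _ ≤ s * ε := by gcongr
    nlinarith [sq_nonneg (s * ‖T y‖)]
  exact le_of_mul_le_mul_left h4 (by positivity)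

/-- A bounded sequence with `a (n+1) ≤ k * a n`, `k > 1`, has `0 ≤ a 1`. -/
theorem nonneg_of_rec {a : ℕ → ℝ} {k B : ℝ} (hk : 1 < k) (hB : ∀ n, -B ≤ a n)
    (h : ∀ n, 1 ≤ n → a (n + 1) ≤ k * a n) : 0 ≤ a 1 := by
  by_contra hneg
  push Not at hneg
  have key : ∀ n, a (n + 1) ≤ k ^ n * a 1 := by
    intro n
    induction n with
    | zero => simp
    | succ n ih =>
      calc a (n + 1 + 1) ≤ k * a (n + 1) := h _ (by omega)
        _ ≤ k * (k ^ n * a 1) := by gcongr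
        _ = k ^ (n + 1) * a 1 := by ring
  obtain ⟨n, hn⟩ := pow_unbounded_of_one_lt (B / (-a 1)) hk
  rw [div_lt_iff₀ (by linarith)] at hn
  have := hB (n + 1)
  have := key n
  nlinarith

/-- The perturbation lemma. -/
theorem norm_le_two (T : H →L[ℂ] H) (G : ℕ → H →L[ℂ] H) (c : ℂ) (hc : c.re = 1) (M : ℝ)
    (hG : ∀ n, ‖G n‖ ≤ M) (hT : ∀ n, ‖T ^ n‖ ≤ M) (hcomm : ∀ n, T * G n = G n * T)
    (s : ℕ → H → H → ℝ)
    (hs : ∀ n u b, s n u b = (c * ⟪u, (T ^ n) b⟫_ℂ).re + (⟪b, G n u⟫_ℂ).re)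
    (hH : ∀ (n : ℕ) (u a b : H) (r : ℝ), 0 < r →
      s (n + 1) u a + s n u b ≤ r * ‖u‖ ^ 2 + (‖a‖ ^ 2 + ‖b‖ ^ 2 + s 1 b a) / r) :
    ‖T‖ ≤ 2 := by
  by_contra hlt
  push Not at hlt
  set k := ‖T‖ with hk
  have hM : 0 ≤ M := (norm_nonneg _).trans (hG 0)
  obtain ⟨ε, hε0, hε⟩ : ∃ ε : ℝ, 0 < ε ∧ 2 * ε < k * (k - 2) :=
    ⟨k * (k - 2) / 4, by have : 0 < k - 2 := by linarith
                         positivity, by nlinarith⟩
  obtain ⟨x, hx1, hx2, hx3⟩ := exists_almost_max T (by linarith) hε0 (R := M * M)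
  rw [← hk] at hx2 hx3
  set t := ‖T x‖ ^ 2 with ht
  let m : ℕ → ℝ := fun n => (⟪x, G n ((T ^ n) x)⟫_ℂ).re
  have hy : ∀ n, ‖G n ((T ^ n) x)‖ ≤ M * M := by
    intro n
    calc ‖G n ((T ^ n) x)‖ ≤ ‖G n‖ * ‖(T ^ n) x‖ := (G n).le_opNorm _
      _ ≤ ‖G n‖ * (‖T ^ n‖ * ‖x‖) := by gcongr; exact (T ^ n).le_opNorm _
      _ ≤ M * (M * 1) := by rw [hx1]; gcongr; exacts [hG n, hT n]
      _ = M * M := by ring
  have hmb : ∀ n, -(M * M) ≤ m n := by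
    intro n
    have h1 : |m n| ≤ ‖⟪x, G n ((T ^ n) x)⟫_ℂ‖ := Complex.abs_re_le_norm _
    have h2 : ‖⟪x, G n ((T ^ n) x)⟫_ℂ‖ ≤ ‖x‖ * ‖G n ((T ^ n) x)‖ := norm_inner_le_norm _ _
    rw [hx1, one_mul] at h2
    have := abs_le.mp (h1.trans (h2.trans (hy n)))
    linarith [this.1]
  have hself : ∀ u : H, (c * ⟪u, u⟫_ℂ).re = ‖u‖ ^ 2 := by
    intro u
    rw [inner_self_eq_norm_sq_to_K]
    have : ((‖u‖ : ℂ)) ^ 2 = ((‖u‖ ^ 2 : ℝ) : ℂ) := by push_cast; ring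
    erw [this]
    rw [Complex.re_mul_ofReal, hc, one_mul]
  have hpow : ∀ n, (T ^ n) (T x) = (T ^ (n + 1)) x := by
    intro n; rw [pow_succ]; rfl
  -- values of `s`
  have hs1 : ∀ n, s (n + 1) ((T ^ (n + 1)) x) ((k : ℂ) • x)
      = k * (‖(T ^ (n + 1)) x‖ ^ 2 + m (n + 1)) := by
    intro n
    rw [hs, map_smul, inner_smul_right, inner_smul_left, mul_left_comm, Complex.re_ofReal_mul,
      hself, Complex.conj_ofReal, Complex.re_ofReal_mul]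
    ring
  have hs2 : ∀ n, s n ((T ^ (n + 1)) x) (-T x)
      = -(‖(T ^ (n + 1)) x‖ ^ 2 + (⟪T x, T (G n ((T ^ n) x))⟫_ℂ).re) := by
    intro n
    have : T (G n ((T ^ n) x)) = G n ((T ^ (n + 1)) x) := by
      have h := congrArg (fun L : H →L[ℂ] H => L ((T ^ n) x)) (hcomm n)
      simp only [mul_apply_eq_comp] at h
      rw [h, pow_succ']; rfl
    rw [hs, map_neg, inner_neg_right, inner_neg_left, hpow, this, mul_neg, Complex.neg_re, hself,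
      Complex.neg_re]
    ring
  have hs3 : s 1 (-T x) ((k : ℂ) • x) = -(k * (t + m 1)) := by
    rw [hs, map_smul, map_neg, inner_smul_right, inner_smul_left, inner_neg_left, inner_neg_right,
      mul_left_comm, Complex.re_ofReal_mul, Complex.conj_ofReal, Complex.re_ofReal_mul, mul_neg,
      Complex.neg_re, pow_one, hself, Complex.neg_re]
    simp only [m, pow_one]
    ring
  have hkx : ‖(k : ℂ) • x‖ ^ 2 = k ^ 2 := by
    rw [norm_smul, hx1, Complex.norm_real, Real.norm_eq_abs, mul_one, sq_abs]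
  set D := k ^ 2 + t - k * (t + m 1) with hD
  have hD' : ‖(k : ℂ) • x‖ ^ 2 + ‖-T x‖ ^ 2 + s 1 (-T x) ((k : ℂ) • x) = D := by
    rw [hkx, hs3, norm_neg]; ring
  have hD0 : 0 ≤ D := by
    have h := hH 0 0 ((k : ℂ) • x) (-T x) 1 one_pos
    rw [hD', hs, hs] at h
    simpa using h
  have hk1 : 0 < k - 1 := by linarith
  have hrec : ∀ n, k * m (n + 1) - k ^ 2 * m n ≤ D + ε := by
    intro n
    have h := hH n ((T ^ (n + 1)) x) ((k : ℂ) • x) (-T x) (k - 1) hk1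
    rw [hD', hs1, hs2] at h
    have h2 := hx3 _ (hy n)
    have h3 : D / (k - 1) ≤ D := by
      rw [div_le_iff₀ hk1]; nlinarith
    change _ ≤ k ^ 2 * m n + ε at h2
    nlinarith
  -- shift the sequence
  have hk0 : 0 < k := by linarith
  have hmain := nonneg_of_rec (a := fun n => k * (k - 1) * m n + (D + ε)) (k := k)
    (B := k * (k - 1) * (M * M)) (by linarith) (fun n => by
      have := hmb n
      have h2 : k * (k - 1) * (-(M * M)) ≤ k * (k - 1) * m n := by gcongr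
      nlinarith) (fun n _ => by
      have := hrec n
      nlinarith)
  -- conclude
  have htk : t ≤ k ^ 2 := by
    have : ‖T x‖ ≤ k * ‖x‖ := T.le_opNorm _
    rw [hx1, mul_one] at this
    rw [ht]; gcongr
  by_cases hm : 0 ≤ m 1
  · nlinarith
  · push Not at hm
    have h1 : k * (k - 1) * m 1 ≤ k * m 1 := by nlinarith
    nlinarith

end Vale.Agent.P123
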