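import Vale.Agent.P123.Kernel

/-!
The Cauchy formula along an abstract closed cycle that winds convexly around a set `K`
containing the numerical range.
-/

namespace Vale.Agent.P123

open scoped InnerProductSpace
open MeasureTheory

variable {H : Type*} [NormedAddCommGroup H] [InnerProductSpace ℂ H]

theorem inner_sub_eq (B : H →L[ℂ] H) (K : Set ℂ) (hB : ∀ y : H, ‖y‖ = 1 → ⟪y, B y⟫_ℂ ∈ K)
    (z : ℂ) (y : H) (hy : y ≠ 0) :
    ∃ w ∈ K, ⟪y, (algebraMap ℂ (H →L[ℂ] H) z - B) y⟫_ℂ = ((‖y‖ ^ 2 : ℝ) : ℂ) * (z - w) := by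
  have hn : 0 < ‖y‖ := norm_pos_iff.mpr hy
  refine ⟨_, hB (((‖y‖⁻¹ : ℝ) : ℂ) • y) ?_, ?_⟩
  · rw [norm_smul, Complex.norm_real, norm_inv, norm_norm]; field_simp
  · rw [Algebra.algebraMap_eq_smul_one, sub_apply, smul_apply, one_apply_eq_self, inner_sub_right,
      inner_smul_right, map_smul, inner_smul_left, inner_smul_right, Complex.conj_ofReal,
      inner_self_eq_norm_sq_to_K]
    have : (‖y‖ : ℂ) ≠ 0 := by exact_mod_cast hn.ne'
    push_cast
    simp only [Complex.coe_algebraMap]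
    field_simp

theorem res_unit [CompleteSpace H] (B : H →L[ℂ] H) (K : Set ℂ)
    (hB : ∀ y : H, ‖y‖ = 1 → ⟪y, B y⟫_ℂ ∈ K) {ε : ℝ} (hε : 0 < ε) (z : ℂ)
    (hz : ∀ w ∈ K, ε ≤ ‖z - w‖) :
    IsUnit (algebraMap ℂ (H →L[ℂ] H) z - B) ∧ ‖resolvent B z‖ ≤ ε⁻¹ := by
  have h1 : ∀ y : H, ‖y‖ ^ 2 * ε ≤ ‖⟪y, (algebraMap ℂ (H →L[ℂ] H) z - B) y⟫_ℂ‖ := by
    intro y
    by_cases hy : y = 0
    · simp [hy]
    obtain ⟨w, hw, h⟩ := inner_sub_eq B K hB z y hy
    rw [h, norm_mul, Complex.norm_real, Real.norm_eq_abs, abs_of_nonneg (by positivity)]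
    gcongr
    exact hz w hw
  have hU : IsUnit (algebraMap ℂ (H →L[ℂ] H) z - B) := by
    refine ContinuousLinearMap.isUnit_of_forall_le_norm_inner_map _ (c := ⟨ε, hε.le⟩) hε
      fun y => ?_
    rw [norm_inner_symm]
    exact h1 y
  refine ⟨hU, ContinuousLinearMap.opNorm_le_bound _ (by positivity) fun v => ?_⟩
  set y := resolvent B z v with hy
  have h2 : (algebraMap ℂ (H →L[ℂ] H) z - B) y = v := by
    exact congrArg (fun L : H →L[ℂ] H => L v) (Ring.mul_inverse_cancel _ hU)
  have h3 := (h1 y).trans (norm_inner_le_norm _ _)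
  rw [h2] at h3
  by_cases hy0 : ‖y‖ = 0
  · rw [hy0]; positivity
  · have hp : 0 < ‖y‖ := lt_of_le_of_ne (norm_nonneg _) (Ne.symm hy0)
    rw [inv_mul_eq_div, le_div_iff₀ hε]
    nlinarith

theorem eq_of_quadratic {E : Type*} [NormedAddCommGroup E] (F : ℝ → E) (C : ℝ)
    (h : ∀ t ∈ Set.Icc (0 : ℝ) 1, ∀ t' ∈ Set.Icc (0 : ℝ) 1, ‖F t' - F t‖ ≤ C * (t' - t) ^ 2) :
    F 1 = F 0 := by
  have key : ∀ n : ℕ, ‖F 1 - F 0‖ ≤ C * (1 / ((n : ℝ) + 1)) := by
    intro n
    have hn : (0 : ℝ) < n + 1 := by positivity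
    have h1 : ∀ j : ℕ, j ≤ n + 1 → ‖F (j / (n + 1)) - F 0‖ ≤ j * (C * (1 / ((n : ℝ) + 1)) ^ 2) := by
      intro j
      induction j with
      | zero => simp
      | succ j ih =>
        intro hj
        have hj' : (j : ℝ) + 1 ≤ n + 1 := by exact_mod_cast hj
        have hj0 : (0 : ℝ) ≤ j := by positivity
        have h2 := h (j / (n + 1)) ⟨by positivity, by rw [div_le_one hn]; linarith⟩
          ((j + 1) / (n + 1)) ⟨by positivity, by rw [div_le_one hn]; linarith⟩
        have h3 : ((j : ℝ) + 1) / (n + 1) - j / (n + 1) = 1 / (n + 1) := by ring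
        rw [h3] at h2
        have h4 := ih (by omega)
        push_cast
        calc ‖F ((j + 1) / (n + 1)) - F 0‖
            = ‖(F ((j + 1) / (n + 1)) - F (j / (n + 1))) + (F (j / (n + 1)) - F 0)‖ := by
              congr 1; abel
          _ ≤ _ := norm_add_le _ _
          _ ≤ _ := by linarith
    have h2 := h1 (n + 1) le_rfl
    push_cast at h2
    rw [div_self hn.ne'] at h2
    refine h2.trans (le_of_eq ?_)
    field_simp
  have hlim : Filter.Tendsto (fun n : ℕ => C * (1 / ((n : ℝ) + 1))) Filter.atTop (nhds (C * 0)) :=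
    tendsto_one_div_add_atTop_nhds_zero_nat.const_mul C
  rw [mul_zero] at hlim
  have := ge_of_tendsto' hlim key
  rw [← sub_eq_zero, ← norm_le_zero_iff]
  exact this

theorem commute_inverse {E : Type*} [Ring E] {N U : E} (hU : IsUnit U) (h : N * U = U * N) :
    N * Ring.inverse U = Ring.inverse U * N := by
  calc N * Ring.inverse U = Ring.inverse U * U * N * Ring.inverse U := by
        rw [Ring.inverse_mul_cancel _ hU, one_mul]
    _ = Ring.inverse U * N * (U * Ring.inverse U) := by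
        rw [mul_assoc (Ring.inverse U) U N, ← h]; simp only [mul_assoc]
    _ = Ring.inverse U * N := by rw [Ring.mul_inverse_cancel _ hU, mul_one]

theorem inverse_expand {E : Type*} [Ring E] {D U : E} (hU : IsUnit U) (hU' : IsUnit (U - D))
    (h : D * U = U * D) :
    Ring.inverse (U - D) - Ring.inverse U = D * Ring.inverse U ^ 2
      + Ring.inverse U * D * Ring.inverse U * D * Ring.inverse (U - D) := by
  set R := Ring.inverse U
  set R' := Ring.inverse (U - D)
  have h1 : R * U = 1 := Ring.inverse_mul_cancel _ hU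
  have h2 : (U - D) * R' = 1 := Ring.mul_inverse_cancel _ hU'
  have h3 : D * R = R * D := commute_inverse hU h
  have h4 : R' = R + R * D * R' := by
    calc R' = R * U * R' := by rw [h1, one_mul]
      _ = R * ((U - D) * R') + R * D * R' := by noncomm_ring
      _ = R + R * D * R' := by rw [h2, mul_one]
  calc R' - R = R * D * R' := by rw [sub_eq_iff_eq_add, add_comm]; exact h4
    _ = R * D * (R + R * D * R') := by rw [← h4]
    _ = R * D * R + R * D * R * D * R' := by noncomm_ring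
    _ = D * R ^ 2 + R * D * R * D * R' := by
        congr 1
        rw [← h3]; noncomm_ring

variable {X : Type*} [TopologicalSpace X] [CompactSpace X] [MeasurableSpace X]
  [OpensMeasurableSpace X] (m : Measure X) [IsFiniteMeasure m]

omit [CompactSpace X] [MeasurableSpace X] [OpensMeasurableSpace X] in
theorem continuous_res [CompleteSpace H] (B : H →L[ℂ] H) {σ : X → ℂ} (hσ : Continuous σ)
    (hU : ∀ x, IsUnit (algebraMap ℂ (H →L[ℂ] H) (σ x) - B)) :
    Continuous fun x => resolvent B (σ x) := by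
  refine continuous_iff_continuousAt.mpr fun x => ?_
  exact (spectrum.hasDerivAt_resolvent_const_left (hU x)).continuousAt.comp hσ.continuousAt

theorem integral_mul_left' [CompleteSpace H] (N : H →L[ℂ] H) {φ : X → H →L[ℂ] H}
    (h : Continuous φ) : ∫ x, N * φ x ∂m = N * ∫ x, φ x ∂m :=
  (ContinuousLinearMap.mul ℂ (H →L[ℂ] H) N).integral_comp_comm (integrable_of_cont m h)

/-- The integral of the resolvent along the cycle is a scalar. -/
theorem integral_resolvent [CompleteSpace H] (A : H →L[ℂ] H) (σ ν : X → ℂ) (hσ : Continuous σ)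
    (hν : Continuous ν)
    (hex : ∀ Φ φ : ℂ → H →L[ℂ] H, (∀ x, HasDerivAt Φ (φ (σ x)) (σ x)) →
      (Continuous fun x => φ (σ x)) → ∫ x, ν x • φ (σ x) ∂m = 0)
    (K : Set ℂ) (hK : Convex ℝ K) (z0 : ℂ) (hz0 : z0 ∈ K)
    (hA : ∀ y : H, ‖y‖ = 1 → ⟪y, A y⟫_ℂ ∈ K) {ε : ℝ} (hε : 0 < ε)
    (hsep : ∀ x, ∀ w ∈ K, ε ≤ ‖σ x - w‖) :
    ∫ x, ν x • resolvent A (σ x) ∂m = (∫ x, ν x * (σ x - z0)⁻¹ ∂m) • (1 : H →L[ℂ] H) := by
  let N : H →L[ℂ] H := A - z0 • 1
  let B : ℝ → H →L[ℂ] H := fun t => z0 • 1 + (t : ℂ) • N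
  have hB : ∀ t ∈ Set.Icc (0 : ℝ) 1, ∀ y : H, ‖y‖ = 1 → ⟪y, B t y⟫_ℂ ∈ K := by
    intro t ht y hy
    have h := hK hz0 (hA y hy) (a := 1 - t) (b := t) (by linarith [ht.2]) ht.1 (by ring)
    convert h using 1
    simp only [B, N, add_apply, smul_apply, sub_apply, one_apply_eq_self, inner_add_right,
      inner_smul_right, inner_sub_right, inner_self_eq_norm_sq_to_K, hy, Complex.real_smul]
    push_cast
    simp
    ring
  have hU := fun t ht x => res_unit (B t) K (hB t ht) hε (σ x) (hsep x)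
  have hc := fun t ht => continuous_res (B t) hσ fun x => (hU t ht x).1
  let F : ℝ → H →L[ℂ] H := fun t => ∫ x, ν x • resolvent (B t) (σ x) ∂m
  have hF : F 1 = F 0 := by
    refine eq_of_quadratic F ((∫ x, ‖ν x‖ ∂m) * (ε⁻¹ ^ 3 * ‖N‖ ^ 2)) fun t ht t' ht' => ?_
    let D : H →L[ℂ] H := ((t' - t : ℝ) : ℂ) • N
    have hD : ‖D‖ ^ 2 = ‖N‖ ^ 2 * (t' - t) ^ 2 := by
      simp only [D]
      rw [norm_smul, Complex.norm_real, Real.norm_eq_abs, mul_pow, sq_abs, mul_comm]
    have e1 : ∀ x, algebraMap ℂ (H →L[ℂ] H) (σ x) - B t'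
        = algebraMap ℂ (H →L[ℂ] H) (σ x) - B t - D := by
      intro x
      simp only [B, D]
      push_cast
      rw [sub_smul]
      abel
    have e2 : ∀ x, resolvent (B t') (σ x) - resolvent (B t) (σ x)
        = D * resolvent (B t) (σ x) ^ 2 + resolvent (B t) (σ x) * D * resolvent (B t) (σ x) * D
          * resolvent (B t') (σ x) := by
      intro x
      unfold resolvent
      rw [e1]
      refine inverse_expand (hU t ht x).1 (e1 x ▸ (hU t' ht' x).1) ?_
      simp only [B, D, Algebra.algebraMap_eq_smul_one, mul_sub, sub_mul, mul_add, add_mul,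
        smul_mul_assoc, mul_smul_comm, mul_one, one_mul, smul_smul]
      module
    have e3 : ∫ x, ν x • (resolvent (B t) (σ x) ^ 2) ∂m = 0 := by
      refine hex (fun z => -resolvent (B t) z) (fun z => resolvent (B t) z ^ 2) (fun x => ?_)
        ((hc t ht).pow 2)
      have h := (spectrum.hasDerivAt_resolvent_const_left (hU t ht x).1).neg
      rw [neg_neg] at h
      exact h
    have c1 : Continuous fun x => ν x • (resolvent (B t) (σ x) ^ 2) := hν.smul ((hc t ht).pow 2)
    have c2 : Continuous fun x => ν x • (resolvent (B t) (σ x) * D * resolvent (B t) (σ x) * D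
          * resolvent (B t') (σ x)) :=
      hν.smul (((((hc t ht).mul continuous_const).mul (hc t ht)).mul continuous_const).mul
        (hc t' ht'))
    have e4 : F t' - F t = ∫ x, ν x • (resolvent (B t) (σ x) * D * resolvent (B t) (σ x) * D
          * resolvent (B t') (σ x)) ∂m := by
      simp only [F]
      have i1 : Integrable (fun x => ν x • resolvent (B t') (σ x)) m :=
        integrable_of_cont m (hν.smul (hc t' ht'))
      have i2 : Integrable (fun x => ν x • resolvent (B t) (σ x)) m :=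
        integrable_of_cont m (hν.smul (hc t ht))
      have i3 : Integrable (fun x => D * (ν x • (resolvent (B t) (σ x) ^ 2))) m :=
        integrable_of_cont m (continuous_const.mul c1)
      rw [← integral_sub i1 i2]
      have : ∀ x, ν x • resolvent (B t') (σ x) - ν x • resolvent (B t) (σ x)
          = D * (ν x • (resolvent (B t) (σ x) ^ 2)) + ν x • (resolvent (B t) (σ x) * D
            * resolvent (B t) (σ x) * D * resolvent (B t') (σ x)) := by
        intro x
        rw [← smul_sub, e2, smul_add, mul_smul_comm (ν x) D]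
      simp only [this]
      rw [integral_add i3 (integrable_of_cont m c2),
        integral_mul_left' m D c1, e3, mul_zero, zero_add]
    rw [e4]
    have e5 : (∫ x, ‖ν x‖ ∂m) * (ε⁻¹ ^ 3 * ‖N‖ ^ 2) * (t' - t) ^ 2
        = ∫ x, ‖ν x‖ * (ε⁻¹ ^ 3 * ‖D‖ ^ 2) ∂m := by
      rw [integral_mul_const, hD]; ring
    rw [e5]
    refine norm_integral_le_of_norm_le (integrable_of_cont m (hν.norm.mul continuous_const))
      (.of_forall fun x => ?_)
    rw [norm_smul]
    gcongr
    have h1 := (hU t ht x).2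
    have h2 := (hU t' ht' x).2
    calc _ ≤ ‖resolvent (B t) (σ x)‖ * ‖D‖ * ‖resolvent (B t) (σ x)‖ * ‖D‖
          * ‖resolvent (B t') (σ x)‖ := by
          refine (norm_mul_le _ _).trans ?_
          gcongr
          refine (norm_mul_le _ _).trans ?_
          gcongr
          refine (norm_mul_le _ _).trans ?_
          gcongr
          exact norm_mul_le _ _
      _ ≤ ε⁻¹ * ‖D‖ * ε⁻¹ * ‖D‖ * ε⁻¹ := by gcongr
      _ = _ := by ring
  have hB1 : B 1 = A := by simp [B, N]
  have hB0 : ∀ x, resolvent (B 0) (σ x) = (σ x - z0)⁻¹ • (1 : H →L[ℂ] H) := by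
    intro x
    have hne : σ x - z0 ≠ 0 := by
      have := hsep x z0 hz0
      intro h
      rw [h, norm_zero] at this
      linarith
    have h1 : algebraMap ℂ (H →L[ℂ] H) (σ x) - B 0 = (σ x - z0) • 1 := by
      simp [B, Algebra.algebraMap_eq_smul_one, sub_smul]
    have h2 := Ring.mul_inverse_cancel _ (hU 0 (by simp) x).1
    unfold resolvent
    rw [h1] at h2 ⊢
    rw [smul_mul_assoc, one_mul] at h2
    generalize Ring.inverse ((σ x - z0) • (1 : H →L[ℂ] H)) = R at h2 ⊢
    rw [← h2, smul_smul, inv_mul_cancel₀ hne, one_smul]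
  simp only [F, hB1, hB0, smul_smul] at hF
  rw [hF, integral_smul_const]

/-- The Cauchy formula for polynomials of `A`. -/
theorem integral_poly [CompleteSpace H] (A : H →L[ℂ] H) (σ ν : X → ℂ) (hσ : Continuous σ)
    (hν : Continuous ν)
    (hex : ∀ Φ φ : ℂ → H →L[ℂ] H, (∀ x, HasDerivAt Φ (φ (σ x)) (σ x)) →
      (Continuous fun x => φ (σ x)) → ∫ x, ν x • φ (σ x) ∂m = 0)
    (hU : ∀ x, IsUnit (algebraMap ℂ (H →L[ℂ] H) (σ x) - A)) (c : ℂ)
    (hc : ∫ x, ν x • resolvent A (σ x) ∂m = c • (1 : H →L[ℂ] H)) (P : Polynomial ℂ) :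
    ∫ x, P.eval (σ x) • ν x • resolvent A (σ x) ∂m = c • Polynomial.aeval A P := by
  have hR := continuous_res A hσ hU
  have hint : ∀ P : Polynomial ℂ,
      Continuous (fun x => P.eval (σ x) • ν x • resolvent A (σ x)) := fun P =>
    (P.continuous.comp hσ).smul (hν.smul hR)
  have hmom : ∀ (a : ℂ) (n : ℕ), ∫ x, ν x • ((a * σ x ^ n) • (1 : H →L[ℂ] H)) ∂m = 0 := by
    intro a n
    refine hex (fun z => (a * (z ^ (n + 1) / (n + 1))) • (1 : H →L[ℂ] H))
      (fun z => (a * z ^ n) • (1 : H →L[ℂ] H)) (fun x => ?_) (by fun_prop)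
    have h1 : HasDerivAt (fun z : ℂ => a * (z ^ (n + 1) / (n + 1))) (a * σ x ^ n) (σ x) := by
      have h := ((hasDerivAt_pow (n + 1) (σ x)).div_const ((n : ℂ) + 1)).const_mul a
      have hn : (n : ℂ) + 1 ≠ 0 := by exact_mod_cast Nat.succ_ne_zero n
      have e : a * (((n + 1 : ℕ) : ℂ) * σ x ^ (n + 1 - 1) / ((n : ℂ) + 1)) = a * σ x ^ n := by
        rw [Nat.add_sub_cancel]
        push_cast
        field_simp
      rw [e] at h
      exact h
    exact h1.smul_const _
  induction P using Polynomial.induction_on with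
  | C a =>
    simp only [Polynomial.eval_C, Polynomial.aeval_C]
    rw [integral_smul, hc, Algebra.algebraMap_eq_smul_one, smul_comm]
  | add p q hp hq =>
    simp only [Polynomial.eval_add, add_smul, map_add, smul_add]
    rw [integral_add (integrable_of_cont m (hint p)) (integrable_of_cont m (hint q)), hp, hq]
  | monomial n a ih =>
    have e : ∀ x, (Polynomial.C a * Polynomial.X ^ (n + 1)).eval (σ x) • ν x • resolvent A (σ x)
        = ν x • ((a * σ x ^ n) • (1 : H →L[ℂ] H))
          + A * ((Polynomial.C a * Polynomial.X ^ n).eval (σ x) • ν x • resolvent A (σ x)) := by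
      intro x
      have h : (algebraMap ℂ (H →L[ℂ] H) (σ x) - A) * resolvent A (σ x) = 1 :=
        Ring.mul_inverse_cancel _ (hU x)
      rw [← h, Algebra.algebraMap_eq_smul_one]
      simp only [Polynomial.eval_mul, Polynomial.eval_C, Polynomial.eval_pow, Polynomial.eval_X,
        sub_mul, smul_mul_assoc, mul_smul_comm, one_mul]
      module
    simp only [e]
    have i1 : Integrable (fun x => ν x • ((a * σ x ^ n) • (1 : H →L[ℂ] H))) m :=
      integrable_of_cont m (by fun_prop)
    have i2 : Integrable (fun x => A * ((Polynomial.C a * Polynomial.X ^ n).eval (σ x) • ν x •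
        resolvent A (σ x))) m := integrable_of_cont m (continuous_const.mul (hint _))
    rw [integral_add i1 i2, hmom, zero_add, integral_mul_left' m A (hint _), ih]
    simp only [map_mul, Polynomial.aeval_C, map_pow, Polynomial.aeval_X,
      Algebra.algebraMap_eq_smul_one, smul_mul_assoc, mul_smul_comm, one_mul, pow_succ']

/-- The bound along an abstract convex cycle. -/
theorem cycle_bound [CompleteSpace H] [NeZero m] (A : H →L[ℂ] H) (σ ν : X → ℂ) (hσ : Continuous σ)
    (hν : Continuous ν)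
    (hex : ∀ Φ φ : ℂ → H →L[ℂ] H, (∀ x, HasDerivAt Φ (φ (σ x)) (σ x)) →
      (Continuous fun x => φ (σ x)) → ∫ x, ν x • φ (σ x) ∂m = 0)
    (K : Set ℂ) (hK : Convex ℝ K) (z0 : ℂ) (hz0 : z0 ∈ K)
    (hA : ∀ y : H, ‖y‖ = 1 → ⟪y, A y⟫_ℂ ∈ K) {ε : ℝ} (hε : 0 < ε)
    (hsep : ∀ x, ∀ w ∈ K, ε ≤ ‖σ x - w‖)
    (hpos : ∀ x, ∀ w ∈ K, 0 < (ν x * (starRingEnd ℂ) (σ x - w)).re)
    (P : Polynomial ℂ) (hP : ∀ x, ‖P.eval (σ x)‖ ≤ 1) : ‖Polynomial.aeval A P‖ ≤ 2 := by
  have hU := fun x => (res_unit A K hA hε (σ x) (hsep x)).1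
  have hR := continuous_res A hσ hU
  have hc := integral_resolvent m A σ ν hσ hν hex K hK z0 hz0 hA hε hsep
  set c := ∫ x, ν x * (σ x - z0)⁻¹ ∂m with hcdef
  have hne : ∀ x, σ x - z0 ≠ 0 := by
    intro x h
    have := hsep x z0 hz0
    rw [h, norm_zero] at this
    linarith
  have hcont : Continuous fun x => ν x * (σ x - z0)⁻¹ :=
    hν.mul ((hσ.sub continuous_const).inv₀ hne)
  have hcre : 0 < c.re := by
    have h1 : c.re = ∫ x, (ν x * (σ x - z0)⁻¹).re ∂m :=
      (integral_re (integrable_of_cont m hcont)).symm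
    have h2 : ∀ x, 0 < (ν x * (σ x - z0)⁻¹).re := by
      intro x
      rw [Complex.inv_def, ← mul_assoc, Complex.re_mul_ofReal]
      exact mul_pos (hpos x z0 hz0) (inv_pos.mpr (Complex.normSq_pos.mpr (hne x)))
    rw [h1, integral_pos_iff_support_of_nonneg (fun x => (h2 x).le)
      (integrable_of_cont m (Complex.continuous_re.comp hcont))]
    have : (Function.support fun x => (ν x * (σ x - z0)⁻¹).re) = Set.univ := by
      ext x; simp only [Function.mem_support, Set.mem_univ, iff_true]; exact (h2 x).ne'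
    rw [this]
    exact Measure.measure_univ_pos.mpr (NeZero.ne m)
  refine norm_le_two_of_kernel m _ (fun x => ((c.re⁻¹ : ℝ) : ℂ) • ν x • resolvent A (σ x))
    (by fun_prop) (fun x v => ?_) (fun x => ?_) (fun x => P.eval (σ x))
    (P.continuous.comp hσ) hP (((c.re⁻¹ : ℝ) : ℂ) * c) ?_ (fun n => ?_)
  · set y := resolvent A (σ x) v with hy
    have h2 : (algebraMap ℂ (H →L[ℂ] H) (σ x) - A) y = v :=
      congrArg (fun L : H →L[ℂ] H => L v) (Ring.mul_inverse_cancel _ (hU x))
    rw [smul_apply, smul_apply, inner_smul_right, inner_smul_right, Complex.re_ofReal_mul, ← hy]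
    refine mul_nonneg (by positivity) ?_
    by_cases hy0 : y = 0
    · simp [hy0]
    obtain ⟨w, hw, h⟩ := inner_sub_eq A K hA (σ x) y hy0
    rw [h2] at h
    rw [← inner_conj_symm, h, map_mul, Complex.conj_ofReal, mul_left_comm, Complex.re_ofReal_mul]
    exact mul_nonneg (by positivity) (hpos x w hw).le
  · have h1 : Polynomial.aeval A P * (algebraMap ℂ (H →L[ℂ] H) (σ x) - A)
        = (algebraMap ℂ (H →L[ℂ] H) (σ x) - A) * Polynomial.aeval A P := by
      have e : algebraMap ℂ (H →L[ℂ] H) (σ x) - A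
          = Polynomial.aeval A (Polynomial.C (σ x) - Polynomial.X) := by simp
      rw [e, ← map_mul, ← map_mul, mul_comm]
    have h2 := commute_inverse (hU x) h1
    simp only [mul_smul_comm, smul_mul_assoc]
    unfold resolvent
    rw [h2]
  · rw [Complex.re_ofReal_mul, inv_mul_cancel₀ hcre.ne']
  · have h := integral_poly m A σ ν hσ hν hex hU c hc (P ^ n)
    simp only [Polynomial.eval_pow, map_pow] at h
    rw [mul_smul, ← h, ← integral_smul]
    congr 1
    ext1 x
    rw [smul_comm]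

end Vale.Agent.P123
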