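import Vale.Agent.P123.Polygon

/-!
The Toeplitz-Hausdorff theorem, and the final bound.
-/

namespace Vale.Agent.P123

open scoped InnerProductSpace

variable {H : Type*} [NormedAddCommGroup H] [InnerProductSpace ℂ H]

theorem th_normalised (B : H →L[ℂ] H) (x y : H) (hx : ‖x‖ = 1) (hy : ‖y‖ = 1)
    (h0 : ⟪x, B x⟫_ℂ = 0) (h1 : ⟪y, B y⟫_ℂ = 1) (t : ℝ) (ht : t ∈ Set.Icc (0 : ℝ) 1) :
    ∃ z : H, ‖z‖ = 1 ∧ ⟪z, B z⟫_ℂ = t := by
  -- rotate `x`
  obtain ⟨l, hl1, hl2⟩ : ∃ l : ℂ, ‖l‖ = 1 ∧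
      (l * (⟪y, B x⟫_ℂ - (starRingEnd ℂ) ⟪x, B y⟫_ℂ)).im = 0 := by
    set c := ⟪y, B x⟫_ℂ - (starRingEnd ℂ) ⟪x, B y⟫_ℂ
    by_cases hc : c = 0
    · exact ⟨1, by simp, by simp [hc]⟩
    · have hn : (‖c‖ : ℂ) ≠ 0 := by exact_mod_cast norm_ne_zero_iff.mpr hc
      refine ⟨(starRingEnd ℂ) c / ‖c‖, ?_, ?_⟩
      · rw [norm_div, Complex.norm_conj, Complex.norm_real, norm_norm,
          div_self (norm_ne_zero_iff.mpr hc)]
      · rw [div_mul_eq_mul_div, Complex.conj_mul']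
        have : ((‖c‖ : ℂ)) ^ 2 / ‖c‖ = ((‖c‖ : ℝ) : ℂ) := by field_simp
        rw [this, Complex.ofReal_im]
  set x' := l • x with hx'
  have hx'1 : ‖x'‖ = 1 := by rw [hx', norm_smul, hl1, hx, one_mul]
  have h0' : ⟪x', B x'⟫_ℂ = 0 := by
    rw [hx', map_smul, inner_smul_left, inner_smul_right, h0]; simp
  have him : (⟪x', B y⟫_ℂ + ⟪y, B x'⟫_ℂ).im = 0 := by
    rw [hx', map_smul, inner_smul_left, inner_smul_right, ← hl2]
    generalize ⟪x, B y⟫_ℂ = a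
    generalize ⟪y, B x⟫_ℂ = b
    simp; ring
  clear_value x'
  let v : ℝ → H := fun s => ((1 - s : ℝ) : ℂ) • x' + (s : ℂ) • y
  have hv : ∀ s : ℝ, ⟪v s, B (v s)⟫_ℂ
      = (((1 - s) * s * (⟪x', B y⟫_ℂ + ⟪y, B x'⟫_ℂ).re + s ^ 2 : ℝ) : ℂ) := by
    intro s
    have e : ⟪x', B y⟫_ℂ + ⟪y, B x'⟫_ℂ = ((⟪x', B y⟫_ℂ + ⟪y, B x'⟫_ℂ).re : ℂ) := by
      apply Complex.ext <;> simp only [Complex.ofReal_re, Complex.ofReal_im, him]
    simp only [v, map_add, map_smul, inner_add_left, inner_add_right, inner_smul_left,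
      inner_smul_right, h0', h1, Complex.conj_ofReal]
    push_cast
    rw [← e]
    ring
  have hne : ∀ s : ℝ, v s ≠ 0 := by
    intro s hs
    have h2 : ((1 - s : ℝ) : ℂ) • x' = -((s : ℂ) • y) := eq_neg_of_add_eq_zero_left hs
    have h3 : ⟪((1 - s : ℝ) : ℂ) • x', B (((1 - s : ℝ) : ℂ) • x')⟫_ℂ = 0 := by
      rw [map_smul, inner_smul_left, inner_smul_right, h0']; simp
    have h4 := h3
    rw [h2, map_neg, inner_neg_neg, map_smul, inner_smul_left, inner_smul_right, h1] at h4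
    have h5 : s = 0 := by simpa using h4
    subst h5
    have : x' = 0 := by simpa using h2
    rw [this, norm_zero] at hx'1
    exact zero_ne_one hx'1
  let g : ℝ → ℝ := fun s =>
    ((1 - s) * s * (⟪x', B y⟫_ℂ + ⟪y, B x'⟫_ℂ).re + s ^ 2) / ‖v s‖ ^ 2
  have hg : Continuous g := by
    refine Continuous.div (by fun_prop) (by simp only [v]; fun_prop) fun s => ?_
    exact pow_ne_zero _ (norm_ne_zero_iff.mpr (hne s))
  have hg0 : g 0 = 0 := by simp [g]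
  have hg1 : g 1 = 1 := by simp [g, v, hy]
  obtain ⟨s, -, hs⟩ := intermediate_value_Icc zero_le_one hg.continuousOn
    (show t ∈ Set.Icc (g 0) (g 1) by rwa [hg0, hg1])
  have hn : 0 < ‖v s‖ := norm_pos_iff.mpr (hne s)
  refine ⟨((‖v s‖⁻¹ : ℝ) : ℂ) • v s, ?_, ?_⟩
  · rw [norm_smul, Complex.norm_real, norm_inv, norm_norm]; field_simp
  · rw [map_smul, inner_smul_left, inner_smul_right, hv, ← hs, Complex.conj_ofReal]
    simp only [g]
    have : (‖v s‖ : ℂ) ≠ 0 := by exact_mod_cast hn.ne'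
    push_cast
    field_simp

/-- The Toeplitz-Hausdorff theorem. -/
theorem convex_numrange (A : H →L[ℂ] H) :
    Convex ℝ {z : ℂ | ∃ x : H, ‖x‖ = 1 ∧ ⟪x, A x⟫_ℂ = z} := by
  rintro a ⟨x, hx, ha⟩ b ⟨y, hy, hb⟩ s t hs ht hst
  by_cases hab : a = b
  · refine ⟨x, hx, ?_⟩
    rw [← hab, ← add_smul, hst, one_smul, ha]
  have hba : b - a ≠ 0 := sub_ne_zero.mpr (Ne.symm hab)
  have hB : ∀ z : H, ‖z‖ = 1 →
      ⟪z, ((b - a)⁻¹ • (A - a • (1 : H →L[ℂ] H))) z⟫_ℂ = (b - a)⁻¹ * (⟪z, A z⟫_ℂ - a) := by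
    intro z hz
    rw [smul_apply, sub_apply, smul_apply, one_apply_eq_self, inner_smul_right, inner_sub_right,
      inner_smul_right, inner_self_eq_norm_sq_to_K, hz]
    simp
  obtain ⟨z, hz, h⟩ := th_normalised ((b - a)⁻¹ • (A - a • (1 : H →L[ℂ] H))) x y hx hy
    (by rw [hB x hx, ha]; simp) (by rw [hB y hy, hb]; field_simp) t ⟨ht, by linarith⟩
  refine ⟨z, hz, ?_⟩
  rw [hB z hz, inv_mul_eq_iff_eq_mul₀ hba, sub_eq_iff_eq_add] at h
  have hs' : s = 1 - t := by linarith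
  rw [h, hs', Complex.real_smul, Complex.real_smul]
  push_cast
  ring

theorem isBounded_numrange (A : H →L[ℂ] H) :
    Bornology.IsBounded {z : ℂ | ∃ x : H, ‖x‖ = 1 ∧ ⟪x, A x⟫_ℂ = z} := by
  refine (Metric.isBounded_closedBall (x := (0 : ℂ)) (r := ‖A‖)).subset ?_
  rintro z ⟨x, hx, rfl⟩
  rw [mem_closedBall_zero_iff]
  refine (norm_inner_le_norm _ _).trans ?_
  have := A.le_opNorm x
  rw [hx] at this ⊢
  linarith

/-- Crouzeix's inequality with constant two. -/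
theorem crouzeix [CompleteSpace H] [Nontrivial H] (A : H →L[ℂ] H) (P : Polynomial ℂ) :
    ‖Polynomial.aeval A P‖
      ≤ 2 * sSup ((fun z => ‖P.eval z‖) '' {z : ℂ | ∃ x : H, ‖x‖ = 1 ∧ ⟪x, A x⟫_ℂ = z}) := by
  set W := {z : ℂ | ∃ x : H, ‖x‖ = 1 ∧ ⟪x, A x⟫_ℂ = z} with hW
  have hc : IsCompact (closure W) := (isBounded_numrange A).isCompact_closure
  have hne : W.Nonempty := by
    obtain ⟨x, hx⟩ := exists_norm_eq H (zero_le_one' ℝ)
    exact ⟨_, x, hx, rfl⟩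
  have hbdd : BddAbove ((fun z => ‖P.eval z‖) '' W) :=
    (hc.bddAbove_image P.continuous.norm.continuousOn).mono (Set.image_mono subset_closure)
  refine norm_aeval_le A (closure W) hc (convex_numrange A).closure hne.closure
    (fun y hy => subset_closure ⟨y, hy, rfl⟩) P _ fun z hz => ?_
  have hcl : IsClosed {z : ℂ | ‖P.eval z‖ ≤ sSup ((fun z => ‖P.eval z‖) '' W)} :=
    isClosed_le P.continuous.norm continuous_const
  exact closure_minimal (fun w hw => le_csSup hbdd ⟨w, hw, rfl⟩) hcl hz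

end Vale.Agent.P123
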