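import Vale.Agent.P123.Abstract

/-!
From a positive operator kernel to the hypotheses of the perturbation lemma.
-/

namespace Vale.Agent.P123

open scoped InnerProductSpace
open MeasureTheory

variable {H : Type*} [NormedAddCommGroup H] [InnerProductSpace ℂ H]

/-- The real symmetric form attached to an operator. -/
noncomputable def beta (Q : H →L[ℂ] H) (u v : H) : ℝ :=
  (⟪v, Q u⟫_ℂ).re + (⟪u, Q v⟫_ℂ).re

theorem beta_smul_self (Q : H →L[ℂ] H) (g : ℂ) (w : H) :
    beta Q (g • w) (g • w) = ‖g‖ ^ 2 * beta Q w w := by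
  have h : (⟪g • w, Q (g • w)⟫_ℂ) = ((‖g‖ ^ 2 : ℝ) : ℂ) * ⟪w, Q w⟫_ℂ := by
    rw [map_smul, inner_smul_left, inner_smul_right, ← mul_assoc, Complex.conj_mul']
    push_cast; ring
  simp only [beta, h, Complex.re_ofReal_mul]
  ring

theorem beta_add_self (Q : H →L[ℂ] H) (a b : H) :
    beta Q (a + b) (a + b) = beta Q a a + beta Q b b + 2 * beta Q b a := by
  simp only [beta, map_add, inner_add_left, inner_add_right, Complex.add_re]
  ring

theorem beta_add_right (Q : H →L[ℂ] H) (u a b : H) :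
    beta Q u (a + b) = beta Q u a + beta Q u b := by
  simp only [beta, map_add, inner_add_left, inner_add_right, Complex.add_re]
  ring

theorem beta_real_smul_left (Q : H →L[ℂ] H) (r : ℝ) (u v : H) :
    beta Q ((r : ℂ) • u) v = r * beta Q u v := by
  simp only [beta, map_smul, inner_smul_left, inner_smul_right, Complex.conj_ofReal,
    Complex.re_ofReal_mul]
  ring

theorem beta_pointwise (Q : H →L[ℂ] H) (hQ : ∀ v, 0 ≤ (⟪v, Q v⟫_ℂ).re) (f : ℂ) (hf : ‖f‖ ≤ 1)
    (n : ℕ) (u a b : H) (r : ℝ) (hr : 0 < r) :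
    beta Q u (f ^ (n + 1) • a) + beta Q u (f ^ n • b)
      ≤ r / 2 * beta Q u u + (beta Q a a + beta Q b b + 2 * beta Q b (f ^ 1 • a)) / (2 * r) := by
  have hpos : ∀ v, 0 ≤ beta Q v v := fun v => add_nonneg (hQ v) (hQ v)
  set w := f • a + b with hw
  have h1 : beta Q u (f ^ (n + 1) • a) + beta Q u (f ^ n • b) = beta Q u (f ^ n • w) := by
    rw [hw, smul_add, smul_smul, ← pow_succ, beta_add_right]
  have h2 := hpos (f ^ n • w + ((-r : ℝ) : ℂ) • u)
  rw [beta_add_self, beta_smul_self, beta_smul_self, beta_real_smul_left, Complex.norm_real,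
    Real.norm_eq_abs, sq_abs] at h2
  have h3 : ‖f ^ n‖ ^ 2 ≤ 1 := by
    rw [norm_pow]
    exact pow_le_one₀ (by positivity) (pow_le_one₀ (norm_nonneg _) hf)
  have h4 : beta Q w w ≤ beta Q a a + beta Q b b + 2 * beta Q b (f ^ 1 • a) := by
    rw [hw, beta_add_self, beta_smul_self, pow_one]
    have : ‖f‖ ^ 2 ≤ 1 := pow_le_one₀ (norm_nonneg _) hf
    nlinarith [hpos a]
  rw [h1]
  have h5 : 2 * r * beta Q u (f ^ n • w)
      ≤ r ^ 2 * beta Q u u + (beta Q a a + beta Q b b + 2 * beta Q b (f ^ 1 • a)) := by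
    nlinarith [hpos w]
  have h6 : r / 2 * beta Q u u + (beta Q a a + beta Q b b + 2 * beta Q b (f ^ 1 • a)) / (2 * r)
      = (r ^ 2 * beta Q u u + (beta Q a a + beta Q b b + 2 * beta Q b (f ^ 1 • a))) / (2 * r) := by
    field_simp
  rw [h6, le_div_iff₀ (by positivity)]
  linarith

variable {X : Type*} [TopologicalSpace X] [CompactSpace X] [MeasurableSpace X]
  [OpensMeasurableSpace X] (m : Measure X) [IsFiniteMeasure m]

theorem integrable_of_cont {E : Type*} [NormedAddCommGroup E] {φ : X → E} (h : Continuous φ) :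
    Integrable φ m :=
  h.integrable_of_hasCompactSupport (HasCompactSupport.of_compactSpace φ)

theorem re_inner_integral [CompleteSpace H] {Q : X → H →L[ℂ] H} (hQ : Continuous Q) (u v : H) :
    (⟪v, (∫ x, Q x ∂m) u⟫_ℂ).re = ∫ x, (⟪v, Q x u⟫_ℂ).re ∂m := by
  have h1 : Continuous fun x => Q x u := hQ.clm_apply continuous_const
  rw [ContinuousLinearMap.integral_apply (integrable_of_cont m hQ),
    ← integral_inner (integrable_of_cont m h1)]
  have h2 : Continuous fun x => ⟪v, Q x u⟫_ℂ := continuous_const.inner h1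
  exact (integral_re (integrable_of_cont m h2)).symm

/-- The bound `‖T‖ ≤ 2` from a kernel with nonnegative real part. -/
theorem norm_le_two_of_kernel [CompleteSpace H] (T : H →L[ℂ] H) (Q : X → H →L[ℂ] H)
    (hQc : Continuous Q) (hQ : ∀ x v, 0 ≤ (⟪v, Q x v⟫_ℂ).re) (hcomm : ∀ x, T * Q x = Q x * T)
    (f : X → ℂ) (hfc : Continuous f) (hf : ∀ x, ‖f x‖ ≤ 1) (c : ℂ) (hc : c.re = 1)
    (hT : ∀ n : ℕ, ∫ x, f x ^ n • Q x ∂m = c • T ^ n) : ‖T‖ ≤ 2 := by
  let G : ℕ → H →L[ℂ] H := fun n => ∫ x, (starRingEnd ℂ) (f x ^ n) • Q x ∂m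
  have hc1 : ∀ n : ℕ, Continuous fun x => f x ^ n • Q x := fun n => (hfc.pow n).smul hQc
  have hc2 : ∀ n : ℕ, Continuous fun x => (starRingEnd ℂ) (f x ^ n) • Q x := fun n =>
    (Complex.continuous_conj.comp (hfc.pow n)).smul hQc
  let M : ℝ := ∫ x, ‖Q x‖ ∂m
  have hbd : ∀ g : X → ℂ, (∀ x, ‖g x‖ ≤ 1) → ‖∫ x, g x • Q x ∂m‖ ≤ M := by
    intro g hg
    refine norm_integral_le_of_norm_le (integrable_of_cont m hQc.norm) (.of_forall fun x => ?_)
    rw [norm_smul]
    exact mul_le_of_le_one_left (norm_nonneg _) (hg x)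
  have hfn : ∀ (n : ℕ) x, ‖f x ^ n‖ ≤ 1 := fun n x => by
    rw [norm_pow]; exact pow_le_one₀ (norm_nonneg _) (hf x)
  have hbc : ∀ u v : H, ∀ g : X → ℂ, Continuous g → Continuous fun x => beta (Q x) u (g x • v) := by
    intro u v g hg
    unfold beta
    fun_prop
  have hbc' : ∀ u v : H, Continuous fun x => beta (Q x) u v := by
    intro u v
    unfold beta
    fun_prop
  have hs : ∀ (n : ℕ) (u b : H), ∫ x, beta (Q x) u (f x ^ n • b) ∂m
      = (c * ⟪u, (T ^ n) b⟫_ℂ).re + (⟪b, G n u⟫_ℂ).re := by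
    intro n u b
    have e1 : (c * ⟪u, (T ^ n) b⟫_ℂ).re = ∫ x, (⟪u, (f x ^ n • Q x) b⟫_ℂ).re ∂m := by
      rw [← re_inner_integral m (hc1 n), hT n, smul_apply, inner_smul_right]
    have e2 : (⟪b, G n u⟫_ℂ).re
        = ∫ x, (⟪b, ((starRingEnd ℂ) (f x ^ n) • Q x) u⟫_ℂ).re ∂m :=
      re_inner_integral m (hc2 n) _ _
    rw [e1, e2, ← integral_add]
    · congr 1
      ext x
      simp only [beta, map_smul, inner_smul_left, inner_smul_right, smul_apply]
      ring
    · apply integrable_of_cont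
      exact Complex.continuous_re.comp (continuous_const.inner ((hc1 n).clm_apply continuous_const))
    · apply integrable_of_cont
      exact Complex.continuous_re.comp (continuous_const.inner ((hc2 n).clm_apply continuous_const))
  have hs0 : ∀ u : H, ∫ x, beta (Q x) u u ∂m = 2 * ‖u‖ ^ 2 := by
    intro u
    have e1 : ∫ x, Q x ∂m = c • (1 : H →L[ℂ] H) := by simpa using hT 0
    have e2 : ∫ x, (⟪u, Q x u⟫_ℂ).re ∂m = ‖u‖ ^ 2 := by
      rw [← re_inner_integral m hQc, e1, smul_apply, inner_smul_right,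
        one_apply_eq_self, inner_self_eq_norm_sq_to_K]
      have : ((‖u‖ : ℂ)) ^ 2 = ((‖u‖ ^ 2 : ℝ) : ℂ) := by push_cast; ring
      erw [this]
      rw [Complex.re_mul_ofReal, hc, one_mul]
    have e3 : Integrable (fun x => (⟪u, Q x u⟫_ℂ).re) m := by
      apply integrable_of_cont
      fun_prop
    unfold beta
    rw [integral_add e3 e3, e2]; ring
  refine norm_le_two T G c hc M (fun n => hbd _ fun x => ?_) (fun n => ?_) (fun n => ?_)
    (fun n u b => ∫ x, beta (Q x) u (f x ^ n • b) ∂m) hs ?_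
  · rw [Complex.norm_conj]; exact hfn n x
  · have h1 := hbd _ (hfn n)
    rw [hT n, norm_smul] at h1
    have h2 : 1 ≤ ‖c‖ := by rw [← hc]; exact Complex.re_le_norm c
    nlinarith [norm_nonneg (T ^ n)]
  · have h1 := (ContinuousLinearMap.mul ℂ (H →L[ℂ] H) T).integral_comp_comm
      (integrable_of_cont m (hc2 n))
    have h2 := ((ContinuousLinearMap.mul ℂ (H →L[ℂ] H)).flip T).integral_comp_comm
      (integrable_of_cont m (hc2 n))
    simp only [ContinuousLinearMap.mul_apply', ContinuousLinearMap.flip_apply] at h1 h2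
    change T * ∫ x, (starRingEnd ℂ) (f x ^ n) • Q x ∂m
      = (∫ x, (starRingEnd ℂ) (f x ^ n) • Q x ∂m) * T
    rw [← h1, ← h2]
    congr 1
    ext1 x
    rw [mul_smul_comm, smul_mul_assoc, hcomm]
  · intro n u a b r hr
    have i1 : Integrable (fun x => beta (Q x) u (f x ^ (n + 1) • a)) m :=
      integrable_of_cont m (hbc u a _ (hfc.pow (n + 1)))
    have i2 : Integrable (fun x => beta (Q x) u (f x ^ n • b)) m :=
      integrable_of_cont m (hbc u b _ (hfc.pow n))
    have i3 : Integrable (fun x => beta (Q x) b (f x ^ 1 • a)) m :=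
      integrable_of_cont m (hbc b a _ (hfc.pow 1))
    have j1 := integrable_of_cont m (hbc' u u)
    have j2 := integrable_of_cont m (hbc' a a)
    have j3 := integrable_of_cont m (hbc' b b)
    have k1 : Integrable (fun x => r / 2 * beta (Q x) u u) m := j1.const_mul _
    have k2 : Integrable (fun x => beta (Q x) a a + beta (Q x) b b) m := j2.add j3
    have k3 : Integrable (fun x => 2 * beta (Q x) b (f x ^ 1 • a)) m := i3.const_mul _
    have k4 : Integrable (fun x => (beta (Q x) a a + beta (Q x) b b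
        + 2 * beta (Q x) b (f x ^ 1 • a)) / (2 * r)) m := (k2.add k3).div_const _
    have h : ∫ x, (beta (Q x) u (f x ^ (n + 1) • a) + beta (Q x) u (f x ^ n • b)) ∂m
        ≤ ∫ x, (r / 2 * beta (Q x) u u + (beta (Q x) a a + beta (Q x) b b
          + 2 * beta (Q x) b (f x ^ 1 • a)) / (2 * r)) ∂m :=
      integral_mono (i1.add i2) (k1.add k4)
        (fun x => beta_pointwise (Q x) (hQ x) (f x) (hf x) n u a b r hr)
    rw [integral_add i1 i2, integral_add k1 k4, integral_div, integral_add k2 k3,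
      integral_add j2 j3, integral_const_mul, integral_const_mul, hs0, hs0, hs0] at h
    refine h.trans (le_of_eq ?_)
    field_simp

end Vale.Agent.P123
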