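import Vale.Agent.P123.Cauchy

/-!
Convex polygons around a compact convex set, and the bound `‖P(A)‖ ≤ 2 sup_K ‖P‖`.
-/

namespace Vale.Agent.P123

open scoped InnerProductSpace
open MeasureTheory

theorem exists_root (δ : ℝ) (hδ : 0 < δ) :
    ∃ (N : ℕ) (ω : ℂ), 0 < N ∧ ‖ω‖ = 1 ∧ ω ^ N = 1 ∧ 0 < ω.im ∧ ‖ω - 1‖ ≤ δ := by
  obtain ⟨n, hn⟩ := exists_nat_gt (2 * Real.pi / δ)
  have hpi := Real.pi_pos
  set N := n + 3 with hN
  have hN0 : (0 : ℝ) < N := by positivity
  have hN3 : (3 : ℝ) ≤ N := by rw [hN]; push_cast; linarith [Nat.cast_nonneg (α := ℝ) n]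
  set θ : ℝ := 2 * Real.pi / N with hθ
  have hθ0 : 0 < θ := by positivity
  have hθ1 : θ < Real.pi := by
    rw [hθ, div_lt_iff₀ hN0]; nlinarith
  have hθ2 : θ ≤ δ := by
    rw [hθ, div_le_iff₀ hN0]
    rw [div_lt_iff₀ hδ] at hn
    have : (n : ℝ) ≤ N := by rw [hN]; push_cast; linarith
    nlinarith
  refine ⟨N, Complex.exp (Complex.I * θ), by omega, ?_, ?_, ?_, ?_⟩
  · rw [mul_comm]; exact Complex.norm_exp_ofReal_mul_I θ
  · rw [← Complex.exp_nat_mul]
    have : (N : ℂ) * (Complex.I * θ) = 2 * Real.pi * Complex.I := by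
      have h : (N : ℂ) ≠ 0 := by exact_mod_cast hN0.ne'
      rw [hθ]; push_cast; field_simp
    rw [this, Complex.exp_two_pi_mul_I]
  · rw [mul_comm, Complex.exp_ofReal_mul_I_im]
    exact Real.sin_pos_of_pos_of_lt_pi hθ0 hθ1
  · refine (Real.norm_exp_I_mul_ofReal_sub_one_le).trans ?_
    rw [Real.norm_eq_abs, abs_of_pos hθ0]; exact hθ2

/-- The Euclidean inner product on `ℂ`. -/
def ip (e z : ℂ) : ℝ := e.re * z.re + e.im * z.im

theorem ip_le (e z : ℂ) : |ip e z| ≤ ‖e‖ * ‖z‖ := by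
  have : ip e z = (e * (starRingEnd ℂ) z).re := by simp [ip]
  rw [this]
  refine (Complex.abs_re_le_norm _).trans ?_
  rw [norm_mul, Complex.norm_conj]

theorem ip_self {e : ℂ} (he : ‖e‖ = 1) : ip e e = 1 := by
  have := Complex.normSq_eq_norm_sq e
  rw [he, Complex.normSq_apply] at this
  simpa [ip] using this

theorem cone {e ω d u : ℂ} (he : ‖e‖ = 1) (hω : 0 < ω.im) (h1 : ip e d < 0)
    (h2 : 0 ≤ ip (e * ω) d) (h3 : 0 < ip e u) (h4 : 0 < ip (e * ω) u) :
    0 < (-Complex.I * d * (starRingEnd ℂ) u).re := by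
  have h0 := ip_self he
  have key : ω.im * (-Complex.I * d * (starRingEnd ℂ) u).re * ip e e
      = ip (e * ω) d * ip e u - ip e d * ip (e * ω) u := by
    simp [ip]; ring
  rw [h0, mul_one] at key
  have : 0 < ω.im * (-Complex.I * d * (starRingEnd ℂ) u).re := by
    rw [key]; nlinarith [mul_nonneg h2 h3.le, mul_pos (neg_pos.mpr h1) h4]
  exact (pos_iff_pos_of_mul_pos this).mp hω

theorem exists_polygon (K : Set ℂ) (hKc : IsCompact K) (hK : Convex ℝ K) (hne : K.Nonempty)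
    {ρ : ℝ} (hρ : 0 < ρ) :
    ∃ (N : ℕ) (q : ℕ → ℂ), 0 < N ∧ q N = q 0 ∧ ∀ (k : ℕ), ∀ s ∈ Set.Icc (0 : ℝ) 1,
      (∀ w ∈ K, ρ / 2 ≤ ‖q k + s * (q (k + 1) - q k) - w‖) ∧
      (∀ w ∈ K, 0 < (-Complex.I * (q (k + 1) - q k)
        * (starRingEnd ℂ) (q k + s * (q (k + 1) - q k) - w)).re) ∧
      ∃ w ∈ K, ‖q k + s * (q (k + 1) - q k) - w‖ ≤ ρ := by
  obtain ⟨L, hL⟩ := Metric.isBounded_iff.mp hKc.isBounded
  have hL0 : 0 ≤ L := by
    obtain ⟨z, hz⟩ := hne
    simpa using hL hz hz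
  have hp : ∀ e : ℂ, ∃ p ∈ K, ∀ z ∈ K, ip e z ≤ ip e p := by
    intro e
    obtain ⟨p, hp, h⟩ := hKc.exists_isMaxOn hne (f := fun z => ip e z) (by
      unfold ip; fun_prop)
    exact ⟨p, hp, fun z hz => h hz⟩
  choose p hpK hp using hp
  obtain ⟨N, ω, hN, hω1, hωN, hωi, hωδ⟩ := exists_root (ρ / (2 * (L + ρ))) (by positivity)
  have hre : ω.re < 1 := by
    have := ip_self hω1
    unfold ip at this
    nlinarith
  -- the estimate at a vertex
  have hv : ∀ e e' : ℂ, ‖e'‖ = 1 → ‖e - e'‖ ≤ ρ / (2 * (L + ρ)) → ∀ w ∈ K,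
      ρ / 2 ≤ ip e (p e' + ρ * e' - w) := by
    intro e e' he' hee w hw
    have h1 : ip e (p e' + ρ * e' - w) = (ip e' (p e') - ip e' w) + ρ * ip e' e'
        + ip (e - e') (p e' + ρ * e' - w) := by
      simp [ip]; ring
    have h2 : ‖p e' + ρ * e' - w‖ ≤ L + ρ := by
      calc ‖p e' + ρ * e' - w‖ = ‖(p e' - w) + ρ * e'‖ := by congr 1; ring
        _ ≤ ‖p e' - w‖ + ‖ρ * e'‖ := norm_add_le _ _
        _ ≤ L + ρ := by
          rw [norm_mul, he', mul_one, Complex.norm_real, Real.norm_eq_abs, abs_of_pos hρ,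
            ← dist_eq_norm]
          gcongr
          exact hL (hpK _) hw
    have h3 : |ip (e - e') (p e' + ρ * e' - w)| ≤ ρ / 2 := by
      refine (ip_le _ _).trans ?_
      calc _ ≤ ρ / (2 * (L + ρ)) * (L + ρ) := by gcongr
        _ = ρ / 2 := by field_simp
    rw [h1, ip_self he']
    have := hp e' w hw
    have := (abs_le.mp h3).1
    linarith
  refine ⟨N, fun k => p (ω ^ k) + ρ * ω ^ k, hN, by simp [hωN], fun k s hs => ?_⟩
  simp only [pow_succ]
  have he : ‖ω ^ k‖ = 1 := by rw [norm_pow, hω1, one_pow]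
  generalize ω ^ k = e at he
  have he' : ‖e * ω‖ = 1 := by rw [norm_mul, he, hω1, one_mul]
  have hd1 : ‖e * ω - e‖ ≤ ρ / (2 * (L + ρ)) := by
    rw [← mul_sub_one, norm_mul, he, one_mul]; exact hωδ
  have hd2 : ‖e - e * ω‖ ≤ ρ / (2 * (L + ρ)) := by rwa [norm_sub_rev]
  have hd0 : ∀ e : ℂ, ‖e - e‖ ≤ ρ / (2 * (L + ρ)) := fun e => by
    rw [sub_self, norm_zero]; positivity
  set a := p e + ρ * e with ha
  set b := p (e * ω) + ρ * (e * ω) with hb
  have hseg : ∀ f : ℂ, ∀ w, ρ / 2 ≤ ip f (a - w) → ρ / 2 ≤ ip f (b - w) →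
      ρ / 2 ≤ ip f (a + s * (b - a) - w) := by
    intro f w h1 h2
    have : ip f (a + s * (b - a) - w) = (1 - s) * ip f (a - w) + s * ip f (b - w) := by
      simp [ip]; ring
    rw [this]
    nlinarith [hs.1, hs.2]
  have hA : ∀ w ∈ K, ρ / 2 ≤ ip e (a + s * (b - a) - w) := fun w hw =>
    hseg e w (hv e e he (hd0 e) w hw) (hv e (e * ω) he' hd2 w hw)
  have hB : ∀ w ∈ K, ρ / 2 ≤ ip (e * ω) (a + s * (b - a) - w) := fun w hw =>
    hseg (e * ω) w (hv (e * ω) e he hd1 w hw) (hv (e * ω) (e * ω) he' (hd0 _) w hw)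
  have hee := ip_self he
  have hww := ip_self hω1
  refine ⟨fun w hw => ?_, fun w hw => ?_, ?_⟩
  · have h1 := hA w hw
    have h2 := (abs_le.mp (ip_le e (a + s * (b - a) - w))).2
    rw [he, one_mul] at h2
    linarith
  · refine cone he hωi ?_ ?_ (by linarith [hA w hw]) (by linarith [hB w hw])
    · have h1 : ip e (b - a) = (ip e (p (e * ω)) - ip e (p e)) + ρ * (ω.re - 1) * ip e e := by
        simp [ha, hb, ip]; ring
      rw [h1, hee]
      have := hp e _ (hpK (e * ω))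
      nlinarith
    · have h1 : ip (e * ω) (b - a) = (ip (e * ω) (p (e * ω)) - ip (e * ω) (p e))
          + ρ * (ip ω ω - ω.re) * ip e e := by
        simp [ha, hb, ip]; ring
      rw [h1, hee, hww]
      have := hp (e * ω) _ (hpK e)
      nlinarith
  · refine ⟨_, hK (hpK e) (hpK (e * ω)) (a := 1 - s) (b := s) (by linarith [hs.2]) hs.1
      (by ring), ?_⟩
    have h1 : a + s * (b - a) - ((1 - s) • p e + s • p (e * ω))
        = ρ * (((1 - s : ℝ) : ℂ) * e + s * (e * ω)) := by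
      simp only [ha, hb, Complex.real_smul]; push_cast; ring
    rw [h1, norm_mul, Complex.norm_real, Real.norm_eq_abs, abs_of_pos hρ]
    refine mul_le_of_le_one_right hρ.le ((norm_add_le _ _).trans ?_)
    rw [norm_mul, norm_mul (s : ℂ), he, he', Complex.norm_real, Complex.norm_real,
      Real.norm_eq_abs, Real.norm_eq_abs, abs_of_nonneg hs.1, abs_of_nonneg (by linarith [hs.2])]
    linarith

/-- Exact forms integrate to zero along a closed polygon. -/
theorem polygon_exact {E : Type*} [NormedAddCommGroup E] [NormedSpace ℂ E] [CompleteSpace E]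
    (N : ℕ) (q : ℕ → ℂ) (hq : q N = q 0) (Φ φ : ℂ → E)
    (hΦ : ∀ x : Fin N × Set.Icc (0 : ℝ) 1, HasDerivAt Φ
      (φ (q x.1 + (x.2 : ℝ) * (q (x.1 + 1) - q x.1))) (q x.1 + (x.2 : ℝ) * (q (x.1 + 1) - q x.1)))
    (hφ : Continuous fun x : Fin N × Set.Icc (0 : ℝ) 1 =>
      φ (q x.1 + (x.2 : ℝ) * (q (x.1 + 1) - q x.1))) :
    ∫ x : Fin N × Set.Icc (0 : ℝ) 1, (-Complex.I * (q (x.1 + 1) - q x.1)) •
      φ (q x.1 + (x.2 : ℝ) * (q (x.1 + 1) - q x.1)) ∂(Measure.count.prod volume) = 0 := by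
  have hν : Continuous fun x : Fin N × Set.Icc (0 : ℝ) 1 =>
      (-Complex.I * (q (x.1 + 1) - q x.1)) :=
    (continuous_of_discreteTopology
      (f := fun k : Fin N => -Complex.I * (q (k + 1) - q k))).comp continuous_fst
  have hi : Integrable (fun x : Fin N × Set.Icc (0 : ℝ) 1 => (-Complex.I * (q (x.1 + 1) - q x.1)) •
      φ (q x.1 + (x.2 : ℝ) * (q (x.1 + 1) - q x.1))) (Measure.count.prod volume) :=
    integrable_of_cont _ (hν.smul hφ)
  rw [integral_prod _ hi, integral_count]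
  have hk : ∀ k : Fin N, ∫ s : Set.Icc (0 : ℝ) 1, (-Complex.I * (q (k + 1) - q k)) •
      φ (q k + (s : ℝ) * (q (k + 1) - q k)) = -Complex.I • (Φ (q (k + 1)) - Φ (q k)) := by
    intro k
    rw [integral_subtype measurableSet_Icc (fun s : ℝ => (-Complex.I * (q (k + 1) - q k)) •
      φ (q k + s * (q (k + 1) - q k))), integral_Icc_eq_integral_Ioc,
      ← intervalIntegral.integral_of_le zero_le_one]
    have h := intervalIntegral.integral_eq_sub_of_hasDerivAt (a := 0) (b := 1)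
      (f := fun s : ℝ => -Complex.I • Φ (q k + s * (q (k + 1) - q k)))
      (f' := fun s : ℝ => (-Complex.I * (q (k + 1) - q k)) • φ (q k + s * (q (k + 1) - q k)))
      (fun s hs => ?_) ?_
    · rw [h, smul_sub]; simp
    · rw [Set.uIcc_of_le zero_le_one] at hs
      have h1 : HasDerivAt (fun z : ℂ => q k + z * (q (k + 1) - q k)) (q (k + 1) - q k) (s : ℂ) := by
        simpa using ((hasDerivAt_id (s : ℂ)).mul_const (q (k + 1) - q k)).const_add (q k)
      have h1' : HasDerivAt (fun t : ℝ => q k + (t : ℂ) * (q (k + 1) - q k)) (q (k + 1) - q k) s :=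
        h1.comp_ofReal
      have h2 := ((hΦ (k, ⟨s, hs⟩)).hasFDerivAt.restrictScalars ℝ).comp_hasDerivAt s h1'
      have h3 := h2.const_smul (-Complex.I)
      rw [mul_smul]
      exact h3
    · apply ContinuousOn.intervalIntegrable
      rw [Set.uIcc_of_le zero_le_one, continuousOn_iff_continuous_domRestrict]
      exact (hν.smul hφ).comp (Continuous.prodMk_right k)
  simp only [hk]
  rw [← Finset.smul_sum, Fin.sum_univ_eq_sum_range (fun k => Φ (q (k + 1)) - Φ (q k)),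
    Finset.sum_range_sub (fun k => Φ (q k)), hq, sub_self, smul_zero]

variable {H : Type*} [NormedAddCommGroup H] [InnerProductSpace ℂ H] [CompleteSpace H]

/-- The bound for a compact convex set containing the numerical range. -/
theorem norm_aeval_le (A : H →L[ℂ] H) (K : Set ℂ) (hKc : IsCompact K) (hK : Convex ℝ K)
    (hne : K.Nonempty) (hA : ∀ y : H, ‖y‖ = 1 → ⟪y, A y⟫_ℂ ∈ K) (P : Polynomial ℂ) (S : ℝ)
    (hS : ∀ z ∈ K, ‖P.eval z‖ ≤ S) : ‖Polynomial.aeval A P‖ ≤ 2 * S := by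
  obtain ⟨z0, hz0⟩ := hne
  have hS0 : 0 ≤ S := (norm_nonneg _).trans (hS z0 hz0)
  refine le_of_forall_pos_le_add fun η hη => ?_
  set S' := S + η / 2 with hS'
  have hS'0 : 0 < S' := by positivity
  obtain ⟨ρ, hρ, hρK⟩ := hKc.exists_cthickening_subset_open
    (t := {z | ‖P.eval z‖ < S'}) (isOpen_lt P.continuous.norm continuous_const)
    (fun z hz => (hS z hz).trans_lt (by linarith))
  obtain ⟨N, q, hN, hq, hpoly⟩ := exists_polygon K hKc hK ⟨z0, hz0⟩ hρ
  have : Nonempty (Fin N) := ⟨⟨0, hN⟩⟩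
  have : NeZero ((Measure.count : Measure (Fin N)).prod (volume : Measure (Set.Icc (0 : ℝ) 1))) := by
    refine ⟨Measure.measure_univ_pos.mp ?_⟩
    rw [← Set.univ_prod_univ, Measure.prod_prod]
    simp [hN]
  have hq1 : Continuous fun x : Fin N × Set.Icc (0 : ℝ) 1 => q x.1 :=
    (continuous_of_discreteTopology (f := fun k : Fin N => q k)).comp continuous_fst
  have hq2 : Continuous fun x : Fin N × Set.Icc (0 : ℝ) 1 => q (x.1 + 1) :=
    (continuous_of_discreteTopology (f := fun k : Fin N => q (k + 1))).comp continuous_fst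
  have h := cycle_bound (X := Fin N × Set.Icc (0 : ℝ) 1) (Measure.count.prod volume) A
    (fun x => q x.1 + (x.2 : ℝ) * (q (x.1 + 1) - q x.1))
    (fun x => -Complex.I * (q (x.1 + 1) - q x.1)) (by fun_prop) (by fun_prop)
    (fun Φ φ => polygon_exact N q hq Φ φ) K hK z0 hz0 hA (half_pos hρ)
    (fun x => (hpoly x.1 x.2 x.2.2).1) (fun x => (hpoly x.1 x.2 x.2.2).2.1)
    (Polynomial.C ((S'⁻¹ : ℝ) : ℂ) * P) (fun x => ?_)
  · rw [map_mul, Polynomial.aeval_C, Algebra.algebraMap_eq_smul_one, smul_mul_assoc, one_mul,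
      norm_smul, Complex.norm_real, Real.norm_eq_abs, abs_of_pos (by positivity),
      inv_mul_le_iff₀ hS'0] at h
    linarith
  · obtain ⟨w, hw, hw'⟩ := (hpoly x.1 x.2 x.2.2).2.2
    have h1 := hρK (Metric.mem_cthickening_of_dist_le _ w ρ K hw (by rwa [dist_eq_norm]))
    rw [Polynomial.eval_mul, Polynomial.eval_C, norm_mul, Complex.norm_real, Real.norm_eq_abs,
      abs_of_pos (by positivity), inv_mul_le_iff₀ hS'0, mul_one]
    exact le_of_lt h1

end Vale.Agent.P123
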